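import Vale.Agent.P247U.Desc

/-!
# P247, stage 2: compact manifolds with a local diffeomorphism to the torus
-/

set_option linter.all false

open scoped Manifold ContDiff Topology
open Set Filter Function Metric

noncomputable section

namespace Vale.Agent.P247U

open Vale.Agent.P247.SCY Vale.Agent.P247.SCY.HS
open Vale.Agent.P247X
open Vale.Agent.P247.H74 (R4)
open Vale.Agent.P247.H574 (tr)
open Vale.Agent.P247M (pb dP)

/-- the projection to the torus -/
def pT (y : R4) : Fin 4 → Circle := fun i => Circle.exp (2 * Real.pi * y i)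

theorem pT_eq {x y : R4} : pT x = pT y ↔ ∀ i, ∃ n : ℤ, y i - x i = n := by
  rw [funext_iff]
  refine forall_congr' fun i => ?_
  rw [pT, pT, eq_comm, Circle.exp_eq_exp]
  have := Real.two_pi_pos.ne'
  refine exists_congr fun n => ⟨fun h => ?_, fun h => ?_⟩
  · apply mul_left_cancel₀ this; linarith
  · rw [sub_eq_iff_eq_add.1 h]; ring

theorem pT_add {c : R4} (hc : ∀ i, ∃ n : ℤ, c i = n) (y : R4) : pT (y + c) = pT y :=
  (pT_eq.2 fun i => by simpa using hc i).symm

theorem pT_loc : IsLocalHomeomorph pT := by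
  have h : IsLocalHomeomorph fun t : ℝ => Circle.exp (2 * Real.pi * t) :=
    isLocalHomeomorph_circleExp.comp
      (Homeomorph.mulLeft₀ (2 * Real.pi) Real.two_pi_pos.ne').isLocalHomeomorph
  refine IsLocalHomeomorph.mk _ fun y => ?_
  choose e h1 h2 using fun i => h (y i)
  refine ⟨OpenPartialHomeomorph.pi e, fun i _ => h1 i, fun z _ => funext fun i => ?_⟩
  exact congrFun (h2 i) (z i)

variable {X : Type} [Cl4 X]

/-- local developing maps -/
structure Dv (G : X → Fin 4 → Circle) (r : OpenPartialHomeomorph X R4) : Prop where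
  eq : ∀ x ∈ r.source, pT (r x) = G x
  sm : ContMDiffOn (𝓡 4) 𝓘(ℝ, R4) ∞ r r.source
  sm' : ContMDiffOn 𝓘(ℝ, R4) (𝓡 4) ∞ r.symm r.target

section
variable {G : X → Fin 4 → Circle} (hG : ∀ x, ∃ r, Dv G r ∧ x ∈ r.source)
include hG

theorem cov_of : IsCoveringMap G := by
  refine isLocalHomeomorph_iff_isCoveringMap.1 (IsLocalHomeomorph.mk _ fun x => ?_)
  obtain ⟨r, hr, hx⟩ := hG x
  obtain ⟨e, h1, h2⟩ := pT_loc (r x)
  refine ⟨r.trans e, ⟨hx, h1⟩, fun z hz => ?_⟩
  rw [← hr.eq z hz.1, h2]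
  rfl

variable {F : R4 → X} (hF : Continuous F) (hl : ∀ y, G (F y) = pT y)
include hF hl

theorem lift_loc {r : OpenPartialHomeomorph X R4} (hr : Dv G r) {y : R4} (hy : F y ∈ r.source)
    {ε : ℝ} {z : R4} (hz : ball z ε ⊆ r.target) (hy' : r (F y) ∈ ball z ε) :
    ∀ y', y' + (r (F y) - y) ∈ ball z ε → F y' = r.symm (y' + (r (F y) - y)) := by
  set c := r (F y) - y with hc
  have hci : ∀ i, ∃ n : ℤ, c i = n := pT_eq.1 (by rw [hr.eq _ hy, hl])
  have e : {y' | y' + c ∈ ball z ε} = ball (z - c) ε := by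
    ext y'
    simp only [mem_setOf_eq, mem_ball, dist_eq_norm]
    rw [show y' + c - z = y' - (z - c) by abel]
  have h1 : y + c = r (F y) := by rw [hc]; abel
  have := (cov_of hG).eqOn_of_comp_eqOn (s := {y' | y' + c ∈ ball z ε}) (g₁ := F)
    (g₂ := fun y' => r.symm (y' + c)) (by rw [e]; exact (convex_ball _ _).isPreconnected)
    hF.continuousOn (r.continuousOn_symm.comp (by fun_prop) fun y' h => hz h)
    (fun y' h => by
      show G (F y') = G (r.symm (y' + c))
      rw [hl, ← hr.eq _ (r.map_target (hz h)), r.right_inv (hz h), pT_add hci])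
    (a := y) (by show y + c ∈ ball z ε; rw [h1]; exact hy')
    (by show F y = r.symm (y + c); rw [h1, r.left_inv hy])
  exact fun y' h => this h

theorem lift_ev (y : R4) : ∃ (r : OpenPartialHomeomorph X R4) (c : R4), Dv G r ∧
    y + c ∈ r.target ∧ F =ᶠ[𝓝 y] fun y' => r.symm (y' + c) := by
  obtain ⟨r, hr, hy⟩ := hG (F y)
  obtain ⟨ε, hε, hb⟩ := Metric.isOpen_iff.1 r.open_target _ (r.map_source hy)
  have h1 : y + (r (F y) - y) = r (F y) := by abel
  refine ⟨r, r (F y) - y, hr, by rw [h1]; exact r.map_source hy, ?_⟩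
  have h2 : ∀ᶠ y' in 𝓝 y, y' + (r (F y) - y) ∈ ball (r (F y)) ε :=
    (continuous_id.add continuous_const).continuousAt.eventually
      (isOpen_ball.mem_nhds (by show y + _ ∈ _; rw [h1]; exact mem_ball_self hε))
  exact h2.mono (lift_loc hG hF hl hr hy hb (mem_ball_self hε))

theorem lift_sm (y : R4) : ContMDiffAt 𝓘(ℝ, R4) (𝓡 4) ∞ F y ∧ Bijective (dP F y) := by
  obtain ⟨r, c, hr, hy, e⟩ := lift_ev hG hF hl y
  have h1 := hr.sm'.contMDiffAt (r.open_target.mem_nhds hy)
  have h2 : ContMDiffAt 𝓘(ℝ, R4) 𝓘(ℝ, R4) ∞ (fun y' : R4 => y' + c) y :=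
    (contDiff_id.add contDiff_const).contMDiff y
  refine ⟨(h1.comp y h2).congr_of_eventuallyEq e, ?_⟩
  have h3 : dP F y = dP (fun y' => r.symm (y' + c)) y := e.mfderiv_eq
  rw [h3, dP_comp (P := r.symm) (g := fun y' => y' + c) (h1.mdifferentiableAt (by simp))
    ((hasFDerivAt_id y).add_const c)]
  exact P247Y.mfderiv_bij r.symm hr.sm' hr.sm hy

theorem lift_surj : Surjective F := by
  have key : ∀ x, ∃ U ∈ 𝓝 x, ∀ z ∈ U, ∀ z' ∈ U, z ∈ range F → z' ∈ range F := by
    intro x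
    obtain ⟨r, hr, hx⟩ := hG x
    obtain ⟨ε, hε, hb⟩ := Metric.isOpen_iff.1 r.open_target _ (r.map_source hx)
    refine ⟨r.source ∩ r ⁻¹' ball (r x) ε, (r.isOpen_inter_preimage isOpen_ball).mem_nhds
      ⟨hx, mem_ball_self hε⟩, ?_⟩
    rintro _ hz z' hz' ⟨y, rfl⟩
    have h1 : r z' - (r (F y) - y) + (r (F y) - y) = r z' := by abel
    refine ⟨r z' - (r (F y) - y), ?_⟩
    rw [lift_loc hG hF hl hr hz.1 hb hz.2 _ (by rw [h1]; exact hz'.2), h1, r.left_inv hz'.1]
  have h1 : IsClopen (range F) := by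
    constructor
    · rw [← isOpen_compl_iff, isOpen_iff_mem_nhds]
      intro x hx
      obtain ⟨U, hU, h⟩ := key x
      exact mem_of_superset hU fun z hz hz' => hx (h z hz x (mem_of_mem_nhds hU) hz')
    · rw [isOpen_iff_mem_nhds]
      intro x hx
      obtain ⟨U, hU, h⟩ := key x
      exact mem_of_superset hU fun z hz => h x (mem_of_mem_nhds hU) z hz hx
  exact range_eq_univ.1 (h1.eq_univ ⟨F 0, 0, rfl⟩)

theorem lift_per {x y : R4} (h : F x = F y) :
    (∀ i, ∃ n : ℤ, (y - x) i = n) ∧ ∀ z, F (z + (y - x)) = F z := by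
  have h1 : ∀ i, ∃ n : ℤ, (y - x) i = n := pT_eq.1 (by rw [← hl, ← hl, h])
  refine ⟨h1, fun z => congrFun ((cov_of hG).eq_of_comp_eq (g₁ := fun z => F (z + (y - x)))
    (g₂ := F) (by fun_prop) hF (funext fun z => ?_) x ?_) z⟩
  · show G (F (z + (y - x))) = G (F z)
    rw [hl, hl, pT_add h1]
  · show F (x + (y - x)) = F x
    rw [h]; congr 1; abel

end

/-- the lattice of periods -/
def lat (F : R4 → X) : Submodule ℤ R4 where
  carrier := {k | (∀ i, ∃ n : ℤ, k i = n) ∧ ∀ z, F (z + k) = F z}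
  zero_mem' := ⟨fun _ => ⟨0, by simp⟩, fun z => by simp⟩
  add_mem' := by
    rintro a b ⟨a1, a2⟩ ⟨b1, b2⟩
    refine ⟨fun i => ?_, fun z => by rw [← add_assoc, b2, a2]⟩
    obtain ⟨n, hn⟩ := a1 i
    obtain ⟨m, hm⟩ := b1 i
    exact ⟨n + m, by simp [hn, hm]⟩
  smul_mem' := by
    rintro n a ⟨a1, a2⟩
    refine ⟨fun i => ?_, ?_⟩
    · obtain ⟨m, hm⟩ := a1 i
      exact ⟨n * m, by simp [hm]⟩
    · induction n using Int.induction_on with
      | zero => simp
      | succ n ih => intro z; rw [add_smul, one_smul, ← add_assoc, a2, ih]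
      | pred n ih =>
        intro z
        rw [← a2, sub_smul, one_smul, show z + ((-(n : ℤ)) • a - a) + a = z + (-(n : ℤ)) • a by abel,
          ih]

instance lat_disc (F : R4 → X) : DiscreteTopology (lat F) := by
  refine discreteTopology_of_isOpen_singleton_zero ?_
  have : ({0} : Set (lat F)) = Subtype.val ⁻¹' ball 0 1 := by
    ext ⟨k, hk⟩
    simp only [mem_singleton_iff, Submodule.mk_eq_zero, mem_preimage, mem_ball_zero_iff]
    refine ⟨fun h => by simp [h], fun h => funext fun i => ?_⟩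
    obtain ⟨n, hn⟩ := hk.1 i
    have h1 := (norm_le_pi_norm k i).trans_lt h
    rw [hn, Real.norm_eq_abs] at h1
    have h2 : |n| < 1 := by exact_mod_cast h1
    rw [hn, Int.abs_lt_one_iff.1 h2]
    simp
  rw [this]
  exact isOpen_ball.preimage continuous_subtype_val

theorem pres_of {G : X → Fin 4 → Circle} (hG : ∀ x, ∃ r, Dv G r ∧ x ∈ r.source) :
    ∃ Q : R4 → X, Pres Q := by
  obtain ⟨x0⟩ : Nonempty X := inferInstance
  obtain ⟨r0, hr0, hx0⟩ := hG x0
  have cov := cov_of hG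
  obtain ⟨F, ⟨-, hl'⟩, -⟩ := cov.existsUnique_continuousMap_lifts ⟨pT, pT_loc.continuous⟩ (r0 x0) x0
    (hr0.eq _ hx0).symm
  have hl : ∀ y, G (F y) = pT y := congrFun hl'
  have hF := F.continuous
  have fin : (G ⁻¹' {pT 0}).Finite :=
    (isClosed_singleton.preimage cov.continuous).isCompact.finite
      (IsDiscrete.of_openPartialHomeomorph G subset_rfl fun e _ => by
        obtain ⟨φ, h1, h2⟩ := cov.isLocalHomeomorph e
        exact ⟨φ, h1, h2.symm⟩)
  haveI : IsZLattice ℝ (lat F) := ⟨by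
    rw [eq_top_iff, ← (Pi.basisFun ℝ (Fin 4)).span_eq, Submodule.span_le]
    rintro _ ⟨i, rfl⟩
    obtain ⟨n, m, hnm, e⟩ := fin.exists_lt_map_eq_of_forall_mem
      (f := fun n : ℕ => F ((n : ℝ) • Pi.single i 1)) fun n => by
        show G _ = _
        rw [hl, eq_comm]
        refine pT_eq.2 fun j => ⟨if j = i then n else 0, ?_⟩
        by_cases h : j = i <;> simp [h]
    have h1 : (m : ℝ) • (Pi.single i 1 : R4) - (n : ℝ) • Pi.single i 1 ∈ lat F :=
      lift_per hG hF hl e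
    have h2 : (m : ℝ) - n ≠ 0 := sub_ne_zero.2 (by exact_mod_cast hnm.ne')
    have h3 : Pi.basisFun ℝ (Fin 4) i =
        ((m : ℝ) - n)⁻¹ • ((m : ℝ) • (Pi.single i 1 : R4) - (n : ℝ) • Pi.single i 1) := by
      rw [← sub_smul, smul_smul, inv_mul_cancel₀ h2, one_smul, Pi.basisFun_apply]
    rw [h3]
    exact Submodule.smul_mem _ _ (Submodule.subset_span h1)⟩
  let b := (Module.finBasisOfFinrankEq ℤ (lat F) (n := 4)
    (by rw [ZLattice.rank ℝ]; simp)).ofZLatticeBasis ℝ (lat F)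
  have hb : ∀ k : R4, k ∈ lat F ↔ ∀ i, ∃ n : ℤ, b.repr k i = n := fun k => by
    rw [← Module.Basis.ofZLatticeBasis_span ℝ (lat F) _, Module.Basis.mem_span_iff_repr_mem]
    exact forall_congr' fun i => exists_congr fun n => eq_comm
  let L : R4 ≃L[ℝ] R4 := b.equivFun.symm.toContinuousLinearEquiv
  have hL : ∀ x i, b.repr (L x) i = x i := fun x i => by
    have := congrFun (b.equivFun.apply_symm_apply x) i
    rwa [Module.Basis.equivFun_apply] at this
  refine ⟨fun x => F (L x), fun x => (lift_sm hG hF hl _).1.comp x (L.contDiff.contMDiff x),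
    fun x => ?_, (lift_surj hG hF hl).comp L.surjective, fun x y => ⟨fun e => ?_, ?_⟩⟩
  · show Bijective (dP (fun y => F (L y)) x)
    rw [dP_comp ((lift_sm hG hF hl _).1.mdifferentiableAt (by simp)) L.hasFDerivAt]
    exact (lift_sm hG hF hl _).2.comp L.bijective
  · have h1 : L y - L x ∈ lat F := lift_per hG hF hl e
    rw [← map_sub, hb] at h1
    choose n hn using h1
    refine ⟨n, funext fun i => ?_⟩
    have := hn i
    rw [hL] at this
    simp only [tr, ← this, Pi.sub_apply]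
    ring
  · rintro ⟨n, rfl⟩
    have h1 : L (fun i => (n i : ℝ)) ∈ lat F := (hb _).2 fun i => ⟨n i, hL _ i⟩
    rw [← h1.2 (L x), ← map_add]
    rfl

end Vale.Agent.P247U
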