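import Vale.Agent.P247M.PInt
import Vale.Agent.P247Y.LocInv

/-!
# P247, stage 2: descent of periodic forms along a universal covering `ℝ⁴ → X`
-/

set_option linter.all false

open scoped Manifold ContDiff Topology
open Set Filter MeasureTheory Function

noncomputable section

namespace Vale.Agent.P247U

open Vale.Agent.P247.SCY Vale.Agent.P247.SCY.HS
open Vale.Agent.P247X
open Vale.Agent.P247.H74 (R4)
open Vale.Agent.P247.H574 (tr)
open Vale.Agent.P247M (pb dP rf hs)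
open Vale.Agent.P267.H175 (dF SmAt)

variable {X : Type} [TopologicalSpace X] [ChartedSpace E4 X] {k : ℕ}

/-- `Q` presents `X` as `ℝ⁴ / ℤ⁴` -/
structure Pres (Q : R4 → X) : Prop where
  sm : ContMDiff 𝓘(ℝ, R4) (𝓡 4) ∞ Q
  bij : ∀ x, Bijective (dm4 Q x)
  surj : Surjective Q
  eq : ∀ x y, Q x = Q y ↔ ∃ k, y = tr k x

theorem dP_comp {V W : Type*} [NormedAddCommGroup V] [NormedSpace ℝ V] [NormedAddCommGroup W]
    [NormedSpace ℝ W] {P : V → X} {g : W → V} {L : W →L[ℝ] V} {z : W}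
    (hP : MDifferentiableAt 𝓘(ℝ, V) (𝓡 4) P (g z)) (hg : HasFDerivAt g L z) :
    dP (fun y => P (g y)) z = (dP P (g z)).comp L :=
  (hP.hasMFDerivAt.comp z hg.hasMFDerivAt).mfderiv

theorem pb_comp {V W : Type*} [NormedAddCommGroup V] [NormedSpace ℝ V] [NormedAddCommGroup W]
    [NormedSpace ℝ W] {P : V → X} {g : W → V} {L : W →L[ℝ] V} {z : W}
    (hP : MDifferentiableAt 𝓘(ℝ, V) (𝓡 4) P (g z)) (hg : HasFDerivAt g L z) (α : Form X k) :
    pb (fun y => P (g y)) α z = (pb P α (g z)).compContinuousLinearMap L := by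
  ext v
  show rf α (P (g z)) (fun i => dP (fun y => P (g y)) z (v i)) =
    rf α (P (g z)) fun i => dP P (g z) (L (v i))
  rw [dP_comp hP hg]
  rfl

theorem pb_congr {V : Type*} [NormedAddCommGroup V] [NormedSpace ℝ V] {P P' : V → X} {z : V}
    (h : P =ᶠ[𝓝 z] P') (α : Form X k) : pb P α z = pb P' α z := by
  have h1 : dP P z = dP P' z := h.mfderiv_eq
  ext v
  show rf α (P z) (fun i => dP P z (v i)) = rf α (P' z) fun i => dP P' z (v i)
  rw [h1, h.self_of_nhds]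

theorem hasFDerivAt_tr (n : Fin 4 → ℤ) (x : R4) :
    HasFDerivAt (tr n) (ContinuousLinearMap.id ℝ R4) x :=
  (hasFDerivAt_id x).add_const (fun i => (n i : ℝ))

namespace Pres
variable {Q : R4 → X} (h : Pres Q)
include h

theorem md (x : R4) : MDifferentiableAt 𝓘(ℝ, R4) (𝓡 4) Q x := (h.sm x).mdifferentiableAt (by simp)

theorem per (n : Fin 4 → ℤ) (x : R4) : Q (tr n x) = Q x := ((h.eq _ _).2 ⟨n, rfl⟩).symm

theorem dP_per (n : Fin 4 → ℤ) (x : R4) : dP Q (tr n x) = dP Q x := by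
  have h1 := dP_comp (h.md (tr n x)) (hasFDerivAt_tr n x)
  rw [funext (h.per n)] at h1
  rw [h1]; rfl

theorem pb_per (α : Form X k) (n : Fin 4 → ℤ) (x : R4) : pb Q α (tr n x) = pb Q α x := by
  ext v
  show rf α (Q (tr n x)) (fun i => dP Q (tr n x) (v i)) = rf α (Q x) fun i => dP Q x (v i)
  rw [h.dP_per, h.per]

theorem pb_inj {α β : Form X k} {x : R4} (e : pb Q α x = pb Q β x) : rf α (Q x) = rf β (Q x) := by
  ext v
  choose u hu using fun i => (h.bij x).2 (v i)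
  have h1 := congrArg (fun a => a u) e
  have h2 : v = fun i => dP Q x (u i) := funext fun i => (hu i).symm
  rw [h2]
  exact h1

theorem ext {α β : Form X k} (e : ∀ x, pb Q α x = pb Q β x) : α = β := by
  funext z
  obtain ⟨x, rfl⟩ := h.surj z
  exact h.pb_inj (e x)

/-- the differential as an equivalence -/
def dE (x : R4) : R4 ≃L[ℝ] E4 := P247Y.eqv (dP Q x) (h.bij x)

theorem dE_apply (x v : R4) : h.dE x v = dP Q x v := P247Y.eqv_apply _ _ _

/-- descent of a periodic form -/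
def desc (β : R4 → R4 [⋀^Fin k]→L[ℝ] ℝ) : Form X k :=
  hs fun z => (β (surjInv h.surj z)).compContinuousLinearMap (h.dE (surjInv h.surj z)).symm

theorem pb_desc {β : R4 → R4 [⋀^Fin k]→L[ℝ] ℝ} (hβ : ∀ n x, β (tr n x) = β x) (x : R4) :
    pb Q (h.desc β) x = β x := by
  obtain ⟨n, hn⟩ := (h.eq x (surjInv h.surj (Q x))).1 (surjInv_eq h.surj _).symm
  ext v
  show β (surjInv h.surj (Q x)) (fun i => (h.dE (surjInv h.surj (Q x))).symm (dP Q x (v i))) = _
  rw [hn, hβ]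
  congr 1
  funext i
  rw [← h.dP_per n, ← h.dE_apply, ContinuousLinearEquiv.symm_apply_apply]

variable [IsManifold (𝓡 4) ∞ X]

/-- local sections in a chart -/
theorem exists_sec {e : OpenPartialHomeomorph X E4} (he : e ∈ atlas E4 X) {z : E4}
    (hz : z ∈ e.target) : ∃ g : E4 → R4, ∀ᶠ y in 𝓝 z, ContDiffAt ℝ ∞ g y ∧ Q (g y) = e.symm y := by
  obtain ⟨x, hx⟩ := h.surj (e.symm z)
  obtain ⟨r, r1, -, r2, r3⟩ := P247Y.locInv isOpen_univ h.sm.contMDiffOn (mem_univ x) (h.bij x)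
  have h1 : e.symm z ∈ r.target := by rw [← hx, ← r2]; exact r.map_source r1
  have h2 : ∀ᶠ y in 𝓝 z, e.symm y ∈ r.target :=
    (e.continuousAt_symm hz).eventually (r.open_target.mem_nhds h1)
  refine ⟨fun y => r.symm (e.symm y), ?_⟩
  filter_upwards [h2, e.open_target.mem_nhds hz] with y hy hy'
  refine ⟨?_, by rw [← r2, r.right_inv hy]⟩
  have h3 : ContMDiffAt (𝓡 4) (𝓡 4) ∞ e.symm y :=
    contMDiffAt_symm_of_mem_maximalAtlas (IsManifold.subset_maximalAtlas he) hy'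
  exact ((r3.contMDiffAt (r.open_target.mem_nhds hy)).comp y h3).contDiffAt

theorem loc_sec {e : OpenPartialHomeomorph X E4} {g : E4 → R4} {z : E4}
    (hg : ∀ᶠ y in 𝓝 z, ContDiffAt ℝ ∞ g y ∧ Q (g y) = e.symm y) :
    ∀ᶠ y in 𝓝 z, ∀ α : Form X k,
      loc e α y = (pb Q α (g y)).compContinuousLinearMap (fderiv ℝ g y) := by
  filter_upwards [hg.eventually_nhds] with y hy α
  have h1 : (fun y => Q (g y)) =ᶠ[𝓝 y] e.symm := hy.mono fun _ h => h.2
  rw [← pb_comp (h.md _) (hy.self_of_nhds.1.differentiableAt (by simp)).hasFDerivAt, pb_congr h1]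
  rfl

/-- smoothness in families -/
theorem smooth_fam {W : ℝ → Form X k} (hW : ContDiff ℝ ∞ fun p : ℝ × R4 => pb Q (W p.1) p.2)
    {e : OpenPartialHomeomorph X E4} (he : e ∈ atlas E4 X) :
    ContDiffOn ℝ ∞ (fun p : ℝ × E4 => loc e (W p.1) p.2) (univ ×ˢ e.target) := by
  rintro ⟨t, z⟩ ⟨-, hz⟩
  obtain ⟨g, hg⟩ := h.exists_sec he hz
  have g0 := hg.self_of_nhds.1
  have h1 : ContDiffAt ℝ ∞ (fun p : ℝ × E4 => pb Q (W p.1) (g p.2)) (t, z) :=
    hW.contDiffAt.comp (t, z) (contDiffAt_fst.prodMk (g0.comp (t, z) contDiffAt_snd))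
  have h2 : ContDiffAt ℝ ∞ (fun p : ℝ × E4 => fderiv ℝ g p.2) (t, z) :=
    (g0.fderiv_right (m := ∞) (by simp)).comp (t, z) contDiffAt_snd
  refine ((P267.H175.contDiffAt_comp_alt h1 h2).congr_of_eventuallyEq ?_).contDiffWithinAt
  exact (continuousAt_snd (p := (t, z))).eventually (h.loc_sec (k := k) hg) |>.mono fun p hp => hp _

theorem smooth_of {α : Form X k} (hα : ContDiff ℝ ∞ (pb Q α)) : Smooth α := by
  intro e he z hz
  have h1 := h.smooth_fam (W := fun _ => α) (hα.comp contDiff_snd) he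
  exact (h1.comp (f := fun y : E4 => ((0 : ℝ), y)) (s := e.target) (by fun_prop)
    fun y hy => ⟨mem_univ _, hy⟩) z hz

theorem contDiff_pb {α : Form X k} (hα : Smooth α) : ContDiff ℝ ∞ (pb Q α) :=
  contDiffOn_univ.1 (P247M.contDiffOn_pb isOpen_univ h.sm.contMDiffOn hα)

theorem extDeriv_pb {α : Form X k} (hα : Smooth α) (x : R4) :
    extDeriv (pb Q α) x = pb Q (hs (dF (rf α))) x :=
  P247M.extDeriv_pb isOpen_univ h.sm.contMDiffOn (mem_univ x) (P247M.smooth_iff.1 hα _)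

theorem closed_of {α : Form X k} (hα : Smooth α) (c : ∀ x, extDeriv (pb Q α) x = 0) :
    Closed α := by
  refine (P247M.closed_iff hα).2 fun z => ?_
  obtain ⟨x, rfl⟩ := h.surj z
  have h1 : pb Q (hs (dF (rf α))) x = pb Q (fun _ => 0) x := by
    rw [← h.extDeriv_pb hα, c, P247M.pb_of_zero rfl]
  exact h.pb_inj h1

theorem exact_of {α : Form X 2} {η : Form X 1} (hη : Smooth η)
    (c : ∀ x, extDeriv (pb Q η) x = pb Q α x) : Exact α := by
  refine P247M.exact_iff.2 ⟨rf η, P247M.smooth_iff.1 hη, ?_⟩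
  have h1 : hs (dF (rf η)) = α := h.ext fun x => by rw [← h.extDeriv_pb hη, c]
  rw [← h1]; rfl

end Pres

theorem wedge_quot {V : Type*} [NormedAddCommGroup V] [NormedSpace ℝ V] {μ : Form X 4}
    (hμ : Volume μ) (T : E4 ≃L[ℝ] V) (P : V → X) (α β : Form X 2) (y : V) :
    wedge (pb P α y) (pb P β y) (P247M.fr T) = pb P μ y (P247M.fr T) * quot μ α β (P y) := by
  rw [P247M.wedge_pb, P247M.pb_fr, P247M.pb_fr, P247M.quot_eq, P247M.q4, P247M.rf_hs, mul_assoc]
  congr 1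
  have : rf μ (P y) bas ≠ 0 := P247M.top_ne (hμ.ne_zero _)
  field_simp

end Vale.Agent.P247U
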