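import Vale.Agent.P247U.Desc
import Vale.Agent.P247F.Pair

/-!
# P247, stage 2: transfer of the theorem for the standard torus
-/

set_option linter.all false

open scoped Manifold ContDiff Topology
open Set Filter MeasureTheory Function

noncomputable section

namespace Vale.Agent.P247U

open Vale.Agent.P247 Vale.Agent.P247.SCY Vale.Agent.P247.SCY.HS
open Vale.Agent.P247X
open Vale.Agent.P247.H74 (R4)
open Vale.Agent.P247.H574 (tr)
open Vale.Agent.P247M (pb dP rf hs fr TR)

variable {X : Type} [Cl4 X] {μ : Form X 4} {Q : R4 → X}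

/-- the density of the volume form -/
def den (Q : R4 → X) (μ : Form X 4) (y : R4) : ℝ := pb Q μ y fun i => Pi.single i 1

theorem wedge_den (hμ : Volume μ) (α β : Form X 2) (y : R4) :
    Stmt.wedge (pb Q α) (pb Q β) y = den Q μ y * quot μ α β (Q y) := by
  have := wedge_quot hμ TR Q α β y
  rw [P247M.fr_TR] at this
  exact this

theorem den_ne (h : Pres Q) (hμ : Volume μ) (y : R4) : den Q μ y ≠ 0 := by
  rw [den, ← P247M.fr_TR, P247M.pb_fr]
  refine mul_ne_zero ?_ (P247M.top_ne (hμ.ne_zero _))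
  have h4 : Injective ((dP Q y).comp (TR : E4 →L[ℝ] R4)) := (h.bij y).1.comp TR.injective
  intro h5
  have h6 := LinearMap.bot_lt_ker_of_det_eq_zero h5
  rw [LinearMap.ker_eq_bot.2 h4] at h6
  exact lt_irrefl _ h6

/-- exchange of the first two coordinates -/
def sw : R4 ≃L[ℝ] R4 :=
  (LinearEquiv.funCongrLeft ℝ ℝ (Equiv.swap (0 : Fin 4) 1)).toContinuousLinearEquiv

theorem sw_apply (y : R4) (i : Fin 4) : sw y i = y (Equiv.swap (0 : Fin 4) 1 i) := rfl

theorem Pres.swap (h : Pres Q) : Pres fun y => Q (sw y) where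
  sm := h.sm.comp sw.contDiff.contMDiff
  bij x := by
    have := dP_comp (h.md (sw x)) sw.hasFDerivAt
    show Bijective (dP (fun y => Q (sw y)) x)
    rw [this]
    exact (h.bij (sw x)).comp sw.bijective
  surj := h.surj.comp sw.surjective
  eq x y := by
    rw [h.eq]
    constructor
    · rintro ⟨k, hk⟩
      refine ⟨fun i => k (Equiv.swap 0 1 i), funext fun i => ?_⟩
      have := congrFun hk (Equiv.swap 0 1 i)
      simpa [tr, sw_apply] using this
    · rintro ⟨k, rfl⟩
      exact ⟨fun i => k (Equiv.swap 0 1 i), rfl⟩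

theorem den_swap (h : Pres Q) (y : R4) : den (fun y => Q (sw y)) μ y = -den Q μ (sw y) := by
  rw [den, pb_comp (h.md (sw y)) sw.hasFDerivAt, den]
  refine Eq.trans ?_ ((pb Q μ (sw y)).map_swap (fun i => Pi.single i 1) (i := 0) (j := 1)
    (by decide))
  show pb Q μ (sw y) _ = pb Q μ (sw y) _
  congr 1
  funext i
  funext j
  show (Pi.single i 1 : R4) (Equiv.swap 0 1 j) = (Pi.single (Equiv.swap 0 1 i) 1 : R4) j
  simp only [Pi.single_apply, Equiv.swap_apply_eq_iff]

theorem Pres.orient (h : Pres Q) (hμ : Volume μ) : ∃ Q' : R4 → X, Pres Q' ∧ ∀ y, 0 < den Q' μ y := by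
  obtain ⟨σ, hσ, h1⟩ := P247M.exists_sign (T := TR) isOpen_univ h.sm.contMDiffOn hμ
    isPreconnected_univ subset_rfl fun y _ => (h.bij y).1
  rw [P247M.fr_TR] at h1
  have h2 : ∀ y, 0 < σ * den Q μ y := fun y => by
    rw [den, ← h1 y trivial]; exact abs_pos.2 (den_ne h hμ y)
  rcases hσ with rfl | rfl
  · exact ⟨Q, h, fun y => by simpa using h2 y⟩
  · exact ⟨_, h.swap, fun y => by rw [den_swap h]; simpa using h2 _⟩

/-- the half open cube -/
def cub : Set R4 := Set.pi univ fun _ => Ico (0 : ℝ) 1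

theorem Pres.cub_inj (h : Pres Q) : InjOn Q cub := by
  intro x hx y hy e
  obtain ⟨k, rfl⟩ := (h.eq x y).1 e
  funext i
  have h1 := hx i trivial
  have h2 := hy i trivial
  simp only [tr, mem_Ico] at h1 h2 ⊢
  have h3 : (k i : ℝ) < 1 := by linarith
  have h4 : (-1 : ℝ) < k i := by linarith
  have h5 : k i = 0 := by
    have : k i < 1 := by exact_mod_cast h3
    have : -1 < k i := by exact_mod_cast h4
    omega
  simp [h5]

theorem Pres.cub_surj (h : Pres Q) (z : X) : z ∈ Q '' cub := by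
  obtain ⟨x, rfl⟩ := h.surj z
  refine ⟨tr (fun i => -⌊x i⌋) x, fun i _ => ?_, h.per _ _⟩
  simp only [tr, Int.cast_neg, ← sub_eq_add_neg]
  exact ⟨Int.fract_nonneg _, Int.fract_lt_one _⟩

theorem Pres.pair_eq (h : Pres Q) (hμ : Volume μ) (hd : ∀ y, 0 < den Q μ y) {α β : Form X 2}
    (hα : Smooth α) (hβ : Smooth β) :
    pair μ α β = ∫ x in Icc (0 : R4) 1, Stmt.wedge (pb Q α) (pb Q β) x := by
  have h1 := P247M.pair_param P247M.preserving_TR isOpen_univ h.sm.contMDiffOn hμ (S := cub)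
    (MeasurableSet.univ_pi fun _ => measurableSet_Ico) (subset_univ _) h.cub_inj (σ := 1)
    (fun y _ => by rw [one_mul, P247M.fr_TR]; exact abs_of_pos (hd y))
    (fun e he => (hα e he).continuousOn) (fun e he => (hβ e he).continuousOn)
    (Eventually.of_forall fun x hx => (hx (h.cub_surj x)).elim)
  rw [h1, one_mul, P247M.fr_TR]
  exact setIntegral_congr_set (Measure.univ_pi_Ico_ae_eq_Icc (μ := fun _ => volume))

theorem posDef_of {M : Matrix (Fin 3) (Fin 3) ℝ} (hs : ∀ i j, M i j = M j i)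
    (hp : ∀ c : Fin 3 → ℝ, c ≠ 0 → 0 < ∑ i, ∑ j, c i * c j * M i j) : M.PosDef := by
  refine Matrix.PosDef.of_dotProduct_mulVec_pos (by ext i j; simp [hs i j]) fun c hc => ?_
  refine (hp c hc).trans_eq ?_
  simp only [dotProduct, Matrix.mulVec, star_trivial, Finset.mul_sum]
  exact Finset.sum_congr rfl fun i _ => Finset.sum_congr rfl fun j _ => by ring

theorem pos_of {M : Matrix (Fin 3) (Fin 3) ℝ} (h : M.PosDef) (c : Fin 3 → ℝ) (hc : c ≠ 0) :
    0 < ∑ i, ∑ j, c i * c j * M i j := by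
  refine (h.dotProduct_mulVec_pos hc).trans_eq ?_
  simp only [dotProduct, Matrix.mulVec, star_trivial, Finset.mul_sum]
  exact Finset.sum_congr rfl fun i _ => Finset.sum_congr rfl fun j _ => by ring

theorem Pres.hyper_iff (h : Pres Q) (hμ : Volume μ) (hd : ∀ y, 0 < den Q μ y) (w : Tri X) :
    Hypersymplectic μ w ↔ Stmt.Hypersymplectic fun i => pb Q (w i) := by
  have key : ∀ (c : Fin 3 → ℝ) y, ∑ i, ∑ j, c i * c j * Stmt.wedge (pb Q (w i)) (pb Q (w j)) y =
      2 * den Q μ y * ∑ i, ∑ j, c i * c j * Qm μ w (Q y) i j := by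
    intro c y
    simp only [wedge_den hμ, Finset.mul_sum, Qm, Matrix.of_apply]
    exact Finset.sum_congr rfl fun i _ => Finset.sum_congr rfl fun j _ => by ring
  constructor
  · intro hw
    refine ⟨fun i => ⟨⟨h.contDiff_pb (hw.smooth i), fun n x => h.pb_per _ n x⟩, fun x =>
      P247M.extDeriv_pb_sc isOpen_univ h.sm.contMDiffOn ⟨hw.smooth i, hw.closed i⟩ trivial⟩,
      fun x c hc => ?_⟩
    rw [key]
    exact mul_pos (mul_pos two_pos (hd x)) (pos_of (hw.posDef _) c hc)
  · intro hw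
    have s : ∀ i, Smooth (w i) := fun i => h.smooth_of (hw.closed i).1.1
    refine ⟨s, fun i => h.closed_of (s i) (hw.closed i).2, fun z => ?_⟩
    obtain ⟨x, rfl⟩ := h.surj z
    refine posDef_of (fun i j => by simp only [Qm, Matrix.of_apply, quot_comm μ (w i)])
      fun c hc => ?_
    have := hw.posDef x c hc
    rw [key] at this
    exact (mul_pos_iff_of_pos_left (mul_pos two_pos (hd x))).1 this

theorem alt2_ext {a b : R4 [⋀^Fin 2]→L[ℝ] ℝ} (h : ∀ u v, a ![u, v] = b ![u, v]) : a = b := by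
  ext v
  have : v = ![v 0, v 1] := by funext i; fin_cases i <;> rfl
  rw [this]; exact h _ _

theorem trf_pos (t4 : H574.Q1T4_statement) (h : Pres Q) (hμ : Volume μ)
    (hd : ∀ y, 0 < den Q μ y) : Q1For X μ := by
  intro w hw hn
  obtain ⟨γ, hγ, hk⟩ := t4 (fun i => pb Q (w i)) ((h.hyper_iff hμ hd w).1 hw) fun i j => by
    rw [← h.pair_eq hμ hd (hw.smooth i) (hw.smooth j)]; exact hn i j
  have m : ∀ t, Real.smoothTransition t ∈ Icc (0 : ℝ) 1 := fun t =>
    ⟨Real.smoothTransition.nonneg t, Real.smoothTransition.le_one t⟩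
  set W : ℝ → Tri X := fun t i => h.desc (γ (Real.smoothTransition t) i) with hW
  have e : ∀ t i, pb Q (W t i) = γ (Real.smoothTransition t) i := fun t i =>
    funext (h.pb_desc ((hγ.hypersymplectic _ (m t)).closed i).1.2)
  have hy : ∀ t, Hypersymplectic μ (W t) := fun t => (h.hyper_iff hμ hd _).2 (by
    simp only [e]; exact hγ.hypersymplectic _ (m t))
  refine ⟨W, ⟨fun i c hc => h.smooth_fam (W := fun t => W t i) ?_ hc, fun t _ => hy t, ?_,
    fun t i => ?_⟩, hy 1, ?_⟩
  · simp only [e]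
    refine contDiff_iff_contDiffAt.2 fun p => P267.H175.contDiffAt_alt_iff.2 fun v => ?_
    have h1 : v = ![v 0, v 1] := by funext i; fin_cases i <;> rfl
    rw [h1]
    exact ((hγ.smooth i (v 0) (v 1)).comp
      ((Real.smoothTransition.contDiff.comp contDiff_fst).prodMk contDiff_snd)).contDiffAt
  · funext i
    refine h.ext fun x => ?_
    rw [e, Real.smoothTransition.zero, hγ.start]
  · obtain ⟨a, ha, h1⟩ := hγ.cohomologous _ (m t) i
    have e1 : pb Q (h.desc a) = a := funext (h.pb_desc ha.2)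
    refine h.exact_of (η := h.desc a) (h.smooth_of (by rw [e1]; exact ha.1)) fun x => ?_
    rw [e1, P247M.pb_sub, e]
    exact alt2_ext fun u v => (h1 x u v).symm
  · have hp : ∀ x, 0 < quot μ (W 1 0) (W 1 0) x := fun x => by
      have := tri_of_posDef (hy 1).posDef x 1 0 0 (Or.inl one_ne_zero)
      linarith
    refine ⟨smulV (fun x => quot μ (W 1 0) (W 1 0) x / 2) μ, volume_of hμ ((hy 1).smooth 0) hp,
      fun x => ?_, fun z => ?_⟩
    · show 0 < (quot μ (W 1 0) (W 1 0) x / 2 * rf μ x bas) / rf μ x bas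
      rw [mul_div_assoc, div_self (P247M.mu_ne hμ x), mul_one]
      exact half_pos (hp x)
    · obtain ⟨x, rfl⟩ := h.surj z
      obtain ⟨f, -, hf⟩ := hk.orthogonal
      have h2 : ∀ i j, den Q μ x * quot μ (W 1 i) (W 1 j) (Q x) = if i = j then 2 * f x else 0 :=
        fun i j => by rw [← wedge_den hμ, e, e, Real.smoothTransition.one]; exact hf x i j
      ext i j
      show quot (smulV (fun x => quot μ (W 1 0) (W 1 0) x / 2) μ) (W 1 i) (W 1 j) (Q x) / 2 = _
      rw [quot_smulV, Matrix.one_apply]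
      have h3 := h2 0 0
      have h4 := h2 i j
      have h5 := (hp (Q x)).ne'
      have h6 := (hd x).ne'
      rw [if_pos rfl] at h3
      split_ifs at h4 ⊢ with hij
      · rw [← h3] at h4
        rw [mul_left_cancel₀ h6 h4]
        field_simp
      · rw [(mul_eq_zero.1 h4).resolve_left h6]
        simp

theorem trf_of (t4 : H574.Q1T4_statement) (h : Pres Q) (hμ : Volume μ) : Q1For X μ := by
  obtain ⟨Q', h1, h2⟩ := h.orient hμ
  exact trf_pos t4 h1 hμ h2

end Vale.Agent.P247U
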