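import Vale.Agent.P247U.Trf
import Vale.Agent.P247A.Spec2
import Vale.Agent.P247.H74.Fin2.Fin

/-!
# P247, stage 2: the row `TRF`
-/

set_option linter.all false

namespace Vale.Agent.P247U

theorem trf : P247A.TRF_statement := fun _ _ _ hμ _ h =>
  trf_of P247.H74.Fin2.Q1T4 ⟨h.smooth, h.imm, h.surj, h.fib⟩ hμ

end Vale.Agent.P247U
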